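import Crest.Agent.X212.M.Lvi

/-!
# Row 212, layer M (helper51): the leaves FLAT and MOD
-/

set_option autoImplicit false
set_option linter.unusedSectionVars false
noncomputable section
open Set Function Filter Topology
open scoped ContDiff Manifold

namespace Crest.Agent.X212.Pfm51
open An M Eqv71 Pj41
open Loc66 (Cmt connOn_add)

variable {ι lam : Type} [Fintype ι] [Fintype lam]

theorem flat_pt {Z : Mf 4} {B : Base Z.M ι lam} {m : Md Z.M ι lam} (hB : B.OK Z.I) (hm : m.OK Z.I B)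
    (p : Z.M) : ∃ D, IsOpen D ∧ p ∈ D ∧ ∀ G : Geo Z.I Z.M ι lam, G.OK B →
      ∃ φ : m.Cn, ConnOn B G m φ D ∧ ∀ x ∈ D, m.Fg G.F φ x = 0 := by
  obtain ⟨U₀, s₀, h₀⟩ := Std94.exists_bx hB p
  obtain ⟨U, s, -, -, h⟩ := Std94.exists_bx_near hB h₀
  obtain ⟨O, h1, h2, h3⟩ := mem_nhds_iff.1 h
  obtain ⟨n, g, k1, k2⟩ := Dfl49.Frs.md (O := O) ⟨U, s, h1⟩ hB ⟨p, h3⟩
  obtain ⟨D, u, d1, d2, d3, d4⟩ := Std94.exists_iso0 hB h2 (OK.on hm O) k1 h3
  refine ⟨D, d1, d2, fun G hG => ?_⟩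
  obtain ⟨X, hX⟩ := Spn45.exists_conn hB hG hm
  have k := k1.mono d3
  have o := OK.on hm D
  obtain ⟨W, w1, w2⟩ := Dfl49.flat_of_const d1 k (conn_push d4 d1 o k hG.P (IsConn.on hX _)).1
    fun x hx => k2 x (d3 hx)
  obtain ⟨c1, c2⟩ := conn_push (d4.symm o k) d1 k o hG.P w1
  refine ⟨_, c1, fun x hx => PiLp.ext fun t => ?_⟩
  rw [Loc66.Fg_loc (d4.symm o k) d1 k o (fun a => w1.sm a x hx) (fun a => c1.sm a x hx) c2 hx, w2 x hx]
  exact map_zero _

variable (ι lam) in
/-- **FLAT** -/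
theorem flat : FlatStmt ι lam := fun Z B m P hB hm hP => by
  classical
  choose D h1 h2 h3 using flat_pt hB hm
  obtain ⟨U, k1, k2⟩ := hP.t2_separation
  have op : ∀ p, IsOpen (U p ∩ D p) := fun p => (k1 p).2.inter (h1 p)
  refine ⟨⋃ p ∈ P, U p ∩ D p, isOpen_biUnion fun p _ => op p,
    fun p hp => mem_biUnion hp ⟨(k1 p).1, h2 p⟩, fun G hG => ?_⟩
  choose φ c1 c2 using fun p => h3 p G hG
  let V : m.Cn := fun a x => if h : ∃ p ∈ P, x ∈ U p then φ h.choose a x else 0
  have e : ∀ p ∈ P, ∀ a, ∀ x ∈ U p ∩ D p, V a x = φ p a x := fun p hp a x hx => by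
    have h : ∃ p ∈ P, x ∈ U p := ⟨p, hp, hx.1⟩
    rw [show V a x = _ from dif_pos h,
      k2.elim_set h.choose_spec.1 hp x h.choose_spec.2 hx.1]
  refine ⟨V, ConnOn.of_local fun x hx => ?_, fun x hx => ?_⟩ <;>
    obtain ⟨p, hp, hx⟩ := mem_iUnion₂.1 hx
  · exact ⟨_, hx, ((c1 p).mono inter_subset_right).congr (op p) (e p hp)⟩
  · exact (Loc66.Fg_congr fun a => ((op p).eventually_mem hx).mono (e p hp a)).trans (c2 p x hx.2)

variable (ι lam) in
/-- **MOD** -/
theorem mod : ModStmt ι lam := fun Z Z' B G B' G' O O' φ ψ U v m m' W ξ W' u K g h hξ hp hK hO h0 => by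
  let T : ι → Z.M → En (Fin m'.N) := fun a x => u x ∘L ξ a x ∘L trn (u x)
  let γ : m'.Cn := fun b => O'.indicator fun y => ∑ a, U (ψ y) b a • T a (ψ y)
  have i := g.inv
  have e : ∀ b, ∀ y ∈ O', γ b y = ∑ a, U (ψ y) b a • T a (ψ y) := fun b y hy => indicator_of_mem hy _
  have z : ∀ y ∉ φ '' K, ∀ b, γ b =ᶠ[𝓝 y] fun _ => 0 := fun y hy b => by
    filter_upwards [(hK.image_of_continuousOn fun x hx =>
      (g.rot.sφ x (hO hx)).continuousAt.continuousWithinAt).isClosed.isOpen_compl.mem_nhds hy] with y hy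
    refine indicator_apply_eq_zero.2 fun k => ?_
    simp [T, h0 _ fun k' => hy ⟨_, k', i.rinv y k⟩]
  have mem : ∀ b y, ∃ η ∈ m'.gS y, γ b y = opL η := fun b y => by
    by_cases k : y ∈ O'
    · refine ⟨∑ a, U (ψ y) b a • cj (u (ψ y)) (hsL (ξ a (ψ y))), Submodule.sum_mem _ fun a _ =>
        Submodule.smul_mem _ _ ?_, by simp only [e b y k, map_sum, map_smul, opL_cj, Wz78.opL_hsL, T]⟩
      have := (h.me _ (i.maps' k)).cj_mem (g.be _ (i.maps' k)) h.ok h.ok' (Wz78.mem_g (hξ.sk a _ trivial)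
        ((hξ.p a _ trivial).eq.symm.trans (hp a _)) (hξ.J a _ trivial).eq.symm
        (fun b => (hξ.ρ a b _ trivial).eq.symm) fun s => (hξ.j a _ trivial s).eq.symm)
      rwa [i.rinv y k] at this
    · exact ⟨0, zero_mem _, (indicator_of_notMem k _).trans (map_zero _).symm⟩
  choose η m1 m2 using mem
  have C : Cmt Z'.I B' m' γ univ := by
    refine ⟨fun b y _ => ?_, fun b y _ => ?_,
      fun b y _ => m2 b y ▸ (Wz78.g_p' h.ok' (m1 b y)).trans (Wz78.g_p (m1 b y)).symm,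
      fun b c y _ => m2 b y ▸ (Wz78.g_ρ (m1 b y) c).symm, fun b y _ => m2 b y ▸ Wz78.g_skw (m1 b y),
      fun b y _ => m2 b y ▸ (Wz78.g_J (m1 b y)).symm,
      fun b y _ s => m2 b y ▸ (Wz78.g_j (m1 b y) s).symm⟩
    · by_cases k : y ∈ O'
      · have k' := i.maps' k
        have s : FSm Z.I (fun x => ∑ a, U x b a • T a x) (ψ y) := ContMDiffAt.sum fun a _ =>
          (g.rot.sU b a _ k').smul ((h.su _ k').clm_comp ((hξ.sm a _ trivial).clm_comp (by
            simpa only [ad_trn] using FSm.ad (h.su _ k'))))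
        exact (s.comp y (i.sψ y k)).congr_of_eventuallyEq ((i.opn'.eventually_mem k).mono (e b))
      · exact contMDiffAt_const.congr_of_eventuallyEq
          (z y (by rintro ⟨x, hx, rfl⟩; exact k (i.maps (hO hx))) b)
    · by_cases k : y ∈ O'
      · have := fun a => (g.be _ (i.maps' k)).PU g.hB' b a
        rw [i.rinv y k] at this
        simp only [e _ y k, Finset.smul_sum, smul_smul]
        rw [Finset.sum_comm]
        simp only [← Finset.sum_smul, this]
      · simp [γ, k]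
  refine ⟨fun b y => W' b y + γ b y, fun y hy b => (z y hy b).mono fun _ k => by simp [k],
    h.toLG, h.ok, h.ok', (connOn_add (IsConn.on h.cn _) hξ).isConn h.ok,
    (connOn_add (IsConn.on h.cn' _) C).isConn h.ok', h.su, h.me, fun x hx a => ?_⟩
  have k : ∑ b, U x b a • γ b (φ x) = T a x := by
    simp only [e _ _ (i.maps hx), i.linv x hx, Finset.smul_sum, smul_smul]
    rw [Finset.sum_comm]
    simp only [← Finset.sum_smul, (g.be x hx).UU, T, ← hξ.proj a x trivial,
      ContinuousLinearMap.comp_finsetSum, ContinuousLinearMap.finsetSum_comp,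
      ContinuousLinearMap.comp_smul, ContinuousLinearMap.smul_comp]
  have k' : T a x ∘L u x = u x ∘L ξ a x := by
    rw [ContinuousLinearMap.comp_assoc, ContinuousLinearMap.comp_assoc, (h.me x hx).uu]
    exact congrArg _ (hp a x)
  simp only [pb, smul_add, Finset.sum_add_distrib, k, ContinuousLinearMap.add_comp,
    ContinuousLinearMap.comp_add, k', ← add_assoc]
  exact congrArg (· + _) (h.itw x hx a)

end Crest.Agent.X212.Pfm51
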